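import Vale.Agent.P139Z.Borel.Fix
import Vale.Agent.P139Z.ODefs

/-! Restriction to the real axis. -/

open Set Filter Topology MeasureTheory Complex Metric
open scoped ComplexConjugate ContDiff

namespace Vale.Agent.P139Z.Borel

/-- The function with the power factor. -/
noncomputable def Gc (A : ℂ) (f : ℂ → ℂ) (z : ℂ) : ℂ := z ^ (-A) * f z

/-- The restriction to the real axis. -/
noncomputable def Gr (A : ℂ) (f : ℂ → ℂ) (ρ : ℝ) : ℂ := Gc A f ρ

variable {R θ : ℝ} {f g : ℂ → ℂ} {A : ℂ}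

theorem hasDerivAt_Gc (hR : 0 < R) (hf : DifferentiableOn ℂ f (HP R)) {z : ℂ} (hz : z ∈ HP R) :
    HasDerivAt (Gc A f) (Gc A (fun w => deriv f w - A * f w / w) z) z := by
  have h0 := ne_zero hR hz
  have h1 := (hasDerivAt_id z).cpow_const (c := -A) (Or.inl (re_pos hR hz))
  refine (h1.mul (hf.differentiableAt ((isOpen_HP R).mem_nhds hz)).hasDerivAt).congr_deriv ?_
  simp only [id, Gc, cpow_sub _ _ h0, cpow_one]
  ring

theorem Gc_diff (hR : 0 < R) (hf : DifferentiableOn ℂ f (HP R)) :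
    DifferentiableOn ℂ (Gc A f) (HP R) := fun _ hz =>
  (hasDerivAt_Gc hR hf hz).differentiableAt.differentiableWithinAt

theorem deriv2_Gc (hR : 0 < R) (hf : DifferentiableOn ℂ f (HP R)) {z : ℂ} (hz : z ∈ HP R) :
    deriv (deriv (Gc A f)) z = z ^ (-A) *
      (deriv (deriv f) z - 2 * A * deriv f z / z + A * (A + 1) * f z / z ^ 2) := by
  have h0 := ne_zero hR hz
  have hn := (isOpen_HP R).mem_nhds hz
  have h1 : DifferentiableOn ℂ (fun w => deriv f w - A * f w / w) (HP R) :=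
    (hf.deriv (isOpen_HP R)).sub ((hf.const_mul A).div differentiableOn_id fun w hw =>
      ne_zero hR hw)
  have h2 := ((hasDerivAt_Gc (A := A) hR h1 hz).congr_of_eventuallyEq
    (eventually_of_mem hn fun w hw => (hasDerivAt_Gc (A := A) hR hf hw).deriv)).deriv
  have h3 := (((hf.deriv (isOpen_HP R)).differentiableAt hn).hasDerivAt.sub
    (((hf.differentiableAt hn).hasDerivAt.const_mul A).div (hasDerivAt_id z) h0)).deriv
  have h4 : deriv (fun w => deriv f w - A * f w / w) z =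
      deriv (deriv f) z - (A * deriv f z * z - A * f z * 1) / z ^ 2 := h3
  rw [h2, Gc, h4]
  field_simp
  ring

theorem iter_real {U : Set ℂ} (hU : IsOpen U) (i : ℕ) : ∀ {G : ℂ → ℂ}, DifferentiableOn ℂ G U →
    ∀ {ρ : ℝ}, (ρ : ℂ) ∈ U → iteratedDeriv i (fun x : ℝ => G x) ρ = iteratedDeriv i G ρ := by
  induction i with
  | zero => intro G _ ρ _; simp
  | succ i ih =>
    intro G hG ρ hρ
    rw [iteratedDeriv_succ', iteratedDeriv_succ', ← ih (hG.deriv hU) hρ]
    refine Filter.EventuallyEq.iteratedDeriv_eq i ?_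
    filter_upwards [continuous_ofReal.continuousAt.preimage_mem_nhds (hU.mem_nhds hρ)] with x hx
    exact (hG.differentiableAt (hU.mem_nhds hx)).hasDerivAt.comp_ofReal.deriv

theorem mem_HP {ρ : ℝ} (h : R < ρ) : (ρ : ℂ) ∈ HP R := h

theorem contDiffOn_Gr (hR : 0 < R) (hf : DifferentiableOn ℂ f (HP R)) {r : ℝ} (hr : R ≤ r) :
    ContDiffOn ℝ ∞ (Gr A f) (Ioi r) :=
  (((Gc_diff hR hf).contDiffOn (isOpen_HP R)).restrict_scalars ℝ).comp
    ofRealCLM.contDiff.contDiffOn fun _ hx => mem_HP (hr.trans_lt hx)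

theorem deriv_Gr (hR : 0 < R) (hf : DifferentiableOn ℂ f (HP R)) {ρ : ℝ} (hρ : R < ρ) :
    deriv (Gr A f) ρ = (ρ : ℂ) ^ (-A) * (deriv f ρ - A * f ρ / ρ) :=
  (hasDerivAt_Gc hR hf (mem_HP hρ)).comp_ofReal.deriv

theorem Mop_Gr (hR : 0 < R) {c κ : ℂ} {m : ℕ} (hf : IsSol R θ A c κ m f) {ρ : ℝ} (hρ : R < ρ) :
    Mop A 6 (Gr A f) ρ = (ρ : ℂ) ^ (-A) * Nl κ m f ρ / ρ := by
  have h0 := ne_zero hR (mem_HP hρ)
  have h1 : iteratedDeriv 2 (Gr A f) ρ = deriv (deriv (Gc A f)) ρ := by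
    rw [← iteratedDeriv_one (f := Gc A f), ← iteratedDeriv_succ]
    exact iter_real (isOpen_HP R) 2 (Gc_diff hR hf.1.1) (mem_HP hρ)
  have h2 := hf.ode hR (mem_HP hρ)
  rw [Mop, h1, deriv2_Gc hR hf.1.1 (mem_HP hρ), deriv_Gr hR hf.1.1 hρ, Gr, Gc]
  push_cast
  field_simp at h2 ⊢
  linear_combination ((ρ : ℂ) ^ (-A)) * h2

theorem norm_Gr {ρ : ℝ} (h : 0 < ρ) : ‖Gr A f ρ‖ = ρ ^ (-A.re) * ‖f ρ‖ := by
  rw [Gr, Gc, norm_mul, norm_cpow_eq_rpow_re_of_pos h, neg_re]

/-- The constants of the symbol estimates. -/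
noncomputable def Cs (i : ℕ) : ℝ := i.factorial * (4 * Real.exp Real.pi) * 2 ^ i

theorem symb_Gr (hR : 0 < R) (hf : Bd R 2 f) (h0 : 0 ≤ A.re) (h1 : A.re ≤ 1) (h2 : |A.im| ≤ 1)
    (i : ℕ) {ρ : ℝ} (hρ : 2 * R + 1 ≤ ρ) :
    ‖iteratedDeriv i (Gr A f) ρ‖ ≤ Cs i * ρ ^ (-(A.re + i)) := by
  have hρ0 : 0 < ρ := by linarith
  have hR' : R + ρ / 2 < (ρ : ℂ).re := by
    rw [ofReal_re]
    linarith
  have h3 : iteratedDeriv i (Gr A f) ρ = iteratedDeriv i (Gc A f) ρ :=
    iter_real (isOpen_HP R) i (Gc_diff hR hf.1) (mem_HP (by linarith))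
  have h4 := cauchy (C := 4 * Real.exp Real.pi * ρ ^ (-A.re)) (Gc_diff (A := A) hR hf.1)
    (half_pos hρ0) hR' (fun w hw => by
      have hw' := closedBall_subset hR' (sphere_subset_closedBall hw)
      have a1 : ρ / 2 ≤ ‖w‖ := by
        have b1 := norm_sub_norm_le (ρ : ℂ) w
        rw [norm_sub_rev, mem_sphere_iff_norm.1 hw, Complex.norm_real, Real.norm_of_nonneg hρ0.le]
          at b1
        linarith
      have a2 : ‖w‖ ^ (-A.re) ≤ 2 * ρ ^ (-A.re) := by
        refine (Real.rpow_le_rpow_of_nonpos (half_pos hρ0) a1 (neg_nonpos.2 h0)).trans ?_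
        rw [Real.div_rpow hρ0.le zero_le_two, Real.rpow_neg zero_le_two, div_inv_eq_mul, mul_comm]
        refine mul_le_mul_of_nonneg_right ?_ (Real.rpow_nonneg hρ0.le _)
        simpa using Real.rpow_le_rpow_of_exponent_le one_le_two h1
      have a3 : (Real.exp (arg w * (-A).im))⁻¹ ≤ Real.exp Real.pi := by
        rw [← Real.exp_neg, Real.exp_le_exp]
        refine (neg_le_abs _).trans ?_
        rw [abs_mul, neg_im, abs_neg]
        exact (mul_le_mul (abs_arg_le_pi w) h2 (abs_nonneg _) Real.pi_pos.le).trans_eq (mul_one _)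
      rw [Gc, norm_mul, norm_cpow_of_ne_zero (ne_zero hR hw'), neg_re, div_eq_mul_inv]
      calc _ ≤ 2 * ρ ^ (-A.re) * Real.exp Real.pi * 2 :=
            mul_le_mul (mul_le_mul a2 a3 (by positivity) (by positivity)) (hf.2 w hw')
              (norm_nonneg _) (by positivity)
        _ = _ := by ring) i
  rw [h3]
  refine h4.trans_eq ?_
  rw [neg_add, Real.rpow_add hρ0, Real.rpow_neg hρ0.le (i : ℝ), Real.rpow_natCast, Cs, div_pow]
  field_simp

/-- Continuity of the Cauchy data in the parameters. -/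
theorem continuousOn_data {X : Type} [PseudoMetricSpace X] {s : Set X} (hR : 0 < R) {ρ : ℝ}
    (hρ : R + 1 < ρ) {A : X → ℂ} (hA : Continuous A) {f : X → ℂ → ℂ}
    (hf : ∀ p ∈ s, DifferentiableOn ℂ (f p) (HP R)) {K : ℝ}
    (h : ∀ p ∈ s, ∀ q ∈ s, ∀ z ∈ HP R, ‖f p z - f q z‖ ≤ K * dist p q) :
    ContinuousOn (fun p => (Gr (A p) (f p) ρ, deriv (Gr (A p) (f p)) ρ)) s := by
  have hρ' : R < ρ := by linarith
  have h0 := ne_zero hR (mem_HP hρ')
  have h1 : ContinuousOn (fun p => f p ρ) s :=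
    (LipschitzOnWith.of_dist_le' (K := K) fun p hp q hq => by
      rw [dist_eq_norm]
      exact h p hp q hq _ (mem_HP hρ')).continuousOn
  have h2 : ContinuousOn (fun p => deriv (f p) ρ) s :=
    (LipschitzOnWith.of_dist_le' (K := K) fun p hp q hq => by
      have hn := (isOpen_HP R).mem_nhds (mem_HP hρ')
      rw [dist_eq_norm, ← deriv_sub ((hf p hp).differentiableAt hn)
        ((hf q hq).differentiableAt hn)]
      simpa using cauchy_one ((hf p hp).sub (hf q hq)) one_pos (z := ρ) (by simpa using hρ)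
        (h p hp q hq)).continuousOn
  have h3 : Continuous fun p => (ρ : ℂ) ^ (-A p) := hA.neg.const_cpow (Or.inl h0)
  refine (h3.continuousOn.mul h1).prodMk (ContinuousOn.congr (f := fun p =>
    (ρ : ℂ) ^ (-A p) * (deriv (f p) ρ - A p * f p ρ / ρ)) ?_ fun p hp => deriv_Gr hR (hf p hp) hρ')
  exact h3.continuousOn.mul (h2.sub ((hA.continuousOn.mul h1).div_const _))

end Vale.Agent.P139Z.Borel
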