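import Vale.Agent.P139Z.Borel.Op

/-! The integral equation for the outgoing solutions: existence and stability. -/

open Set Filter Topology MeasureTheory Complex Metric
open scoped ComplexConjugate

namespace Vale.Agent.P139Z.Borel

theorem norm_pow_sub {u v : ℂ} {θ ε : ℝ} (hu : ‖u‖ ≤ θ) (hv : ‖v‖ ≤ θ) (h : ‖u - v‖ ≤ ε) (k : ℕ) :
    θ * ‖u ^ k - v ^ k‖ ≤ k * θ ^ k * ε := by
  have hθ : 0 ≤ θ := (norm_nonneg _).trans hu
  have hε : 0 ≤ ε := (norm_nonneg _).trans h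
  induction k with
  | zero => simp
  | succ k ih =>
    have e : u ^ (k + 1) - v ^ (k + 1) = u * (u ^ k - v ^ k) + (u - v) * v ^ k := by ring
    have h1 : ‖u ^ (k + 1) - v ^ (k + 1)‖ ≤ θ * ‖u ^ k - v ^ k‖ + ε * θ ^ k := by
      rw [e]
      refine (norm_add_le _ _).trans (add_le_add ?_ ?_)
      · rw [norm_mul]
        exact mul_le_mul_of_nonneg_right hu (norm_nonneg _)
      · rw [norm_mul, norm_pow]
        exact mul_le_mul h (pow_le_pow_left₀ (norm_nonneg _) hv k) (by positivity) hε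
    calc θ * ‖u ^ (k + 1) - v ^ (k + 1)‖ ≤ θ * (k * θ ^ k * ε + ε * θ ^ k) :=
          mul_le_mul_of_nonneg_left (h1.trans (add_le_add_left ih _)) hθ
      _ = _ := by push_cast; ring

/-- The holomorphic extension of the nonlinearity. -/
noncomputable def Nl (κ : ℂ) (m : ℕ) (f : ℂ → ℂ) (z : ℂ) : ℂ :=
  κ * (f z ^ (m + 1) * conj (f (conj z)) ^ m)

variable {R θ : ℝ} {f g : ℂ → ℂ}

theorem conj_mem {z : ℂ} (hz : z ∈ HP R) : conj z ∈ HP R := hz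

theorem Bd.conj (h : Bd R θ f) : Bd R θ fun z => conj (f (conj z)) := by
  refine ⟨fun z hz => ?_, fun z hz => by simpa using h.2 _ (conj_mem hz)⟩
  have h1 := (h.1.differentiableAt ((isOpen_HP R).mem_nhds (conj_mem hz))).conj_conj
  rw [conj_conj] at h1
  exact h1.differentiableWithinAt

theorem Nl_bd (h : Bd R θ f) (κ : ℂ) (m : ℕ) : Bd R (‖κ‖ * θ ^ (2 * m + 1)) (Nl κ m f) := by
  refine Bd.const_mul (f := fun z => f z ^ (m + 1) * conj (f (conj z)) ^ m)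
    ⟨(h.1.pow _).mul (h.conj.1.pow _), fun z hz => ?_⟩ le_rfl
  rw [norm_mul, norm_pow, norm_pow, show 2 * m + 1 = m + 1 + m by ring, pow_add θ]
  exact mul_le_mul (pow_le_pow_left₀ (norm_nonneg _) (h.2 z hz) _)
    (pow_le_pow_left₀ (norm_nonneg _) (h.conj.2 z hz) _) (by positivity)
    (pow_nonneg h.nonneg _)

theorem Nl_lip (hθ : 0 < θ) (hf : Bd R θ f) (hg : Bd R θ g) {D : ℝ}
    (h : ∀ z ∈ HP R, ‖f z - g z‖ ≤ D) (κ : ℂ) (m : ℕ) {z : ℂ} (hz : z ∈ HP R) :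
    ‖Nl κ m f z - Nl κ m g z‖ ≤ ‖κ‖ * ((2 * m + 1) * θ ^ (2 * m)) * D := by
  have h1 := norm_pow_sub (hf.2 z hz) (hg.2 z hz) (h z hz) (m + 1)
  have h2 := norm_pow_sub (hf.conj.2 z hz) (hg.conj.2 z hz) (ε := D)
    (by rw [← map_sub, RCLike.norm_conj]; exact h _ (conj_mem hz)) m
  have h3 : ‖f z ^ (m + 1) - g z ^ (m + 1)‖ ≤ (m + 1) * θ ^ m * D := by
    refine le_of_mul_le_mul_left (h1.trans_eq ?_) hθ
    push_cast
    ring
  rw [Nl, Nl, ← mul_sub, norm_mul, mul_assoc]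
  refine mul_le_mul_of_nonneg_left ?_ (norm_nonneg _)
  set u := conj (f (conj z))
  set v := conj (g (conj z))
  have e : f z ^ (m + 1) * u ^ m - g z ^ (m + 1) * v ^ m =
      (f z ^ (m + 1) - g z ^ (m + 1)) * u ^ m + g z ^ (m + 1) * (u ^ m - v ^ m) := by ring
  have hD : 0 ≤ D := (norm_nonneg _).trans (h z hz)
  have h4 : ‖u‖ ^ m ≤ θ ^ m := pow_le_pow_left₀ (norm_nonneg _) (hf.conj.2 z hz) _
  have h5 : ‖g z‖ ^ (m + 1) ≤ θ ^ (m + 1) := pow_le_pow_left₀ (norm_nonneg _) (hg.2 z hz) _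
  rw [e]
  refine (norm_add_le _ _).trans ?_
  rw [norm_mul, norm_mul, norm_pow, norm_pow]
  calc _ ≤ (m + 1) * θ ^ m * D * θ ^ m + θ ^ (m + 1) * ‖u ^ m - v ^ m‖ :=
        add_le_add (mul_le_mul h3 h4 (by positivity) (by positivity))
          (mul_le_mul_of_nonneg_right h5 (norm_nonneg _))
    _ = (m + 1) * θ ^ m * D * θ ^ m + θ ^ m * (θ * ‖u ^ m - v ^ m‖) := by ring
    _ ≤ (m + 1) * θ ^ m * D * θ ^ m + θ ^ m * (m * θ ^ m * D) :=
        add_le_add_right (mul_le_mul_of_nonneg_left h2 (by positivity)) _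
    _ = _ := by ring

/-- The right-hand side of the integral equation. -/
noncomputable def Psi (A c : ℂ) (f N : ℂ → ℂ) (z : ℂ) : ℂ :=
  c + Lop (fun w => (24 - 8 * A) * f w) (fun w => (4 * A ^ 2 - 28 * A + 24) * f w - N w) z

theorem norm_c2 {A : ℂ} (hA : ‖A‖ ≤ 2) : ‖24 - 8 * A‖ ≤ 40 := by
  refine (norm_sub_le _ _).trans ?_
  rw [norm_mul]
  simp only [Complex.norm_ofNat]
  linarith

theorem norm_c3 {A : ℂ} (hA : ‖A‖ ≤ 2) : ‖4 * A ^ 2 - 28 * A + 24‖ ≤ 96 := by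
  refine (norm_add_le _ _).trans ((add_le_add_left (norm_sub_le _ _) _).trans ?_)
  rw [norm_mul, norm_mul, norm_pow]
  simp only [Complex.norm_ofNat]
  nlinarith [norm_nonneg A]

theorem Psi_near (hR : 0 < R) {A : ℂ} (hA : ‖A‖ ≤ 2) (c : ℂ) (hf : Bd R 2 f) {N : ℂ → ℂ}
    (hN : Bd R 1 N) {z : ℂ} (hz : z ∈ HP R) : ‖Psi A c f N z - c‖ ≤ 273 / z.re := by
  rw [Psi, add_sub_cancel_left]
  refine (norm_L_le hR (hf.const_mul (norm_c2 hA)) ((hf.const_mul (norm_c3 hA)).sub hN)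
    hz).trans_eq ?_
  norm_num

theorem Psi_diff (hR : 0 < R) {A : ℂ} (c : ℂ) (hf : Bd R θ f) {N : ℂ → ℂ} {ν : ℝ}
    (hN : Bd R ν N) : DifferentiableOn ℂ (Psi A c f N) (HP R) :=
  (L_diff hR (hf.const_mul le_rfl) ((hf.const_mul le_rfl).sub hN)).const_add c

theorem Psi_sub (hR : 0 < R) {A A' : ℂ} (hA : ‖A‖ ≤ 2) (hA' : ‖A'‖ ≤ 2) (c c' : ℂ) (hf : Bd R 2 f)
    (hg : Bd R 2 g) {N N' : ℂ → ℂ} (hN : Bd R 1 N) (hN' : Bd R 1 N') {D ν : ℝ}
    (h : ∀ z ∈ HP R, ‖f z - g z‖ ≤ D) (h' : ∀ z ∈ HP R, ‖N z - N' z‖ ≤ ν) {z : ℂ}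
    (hz : z ∈ HP R) :
    ‖Psi A c f N z - Psi A' c' g N' z‖ ≤ ‖c - c'‖ + (136 * D + 104 * ‖A - A'‖ + ν) / R := by
  have hfg : Bd R D fun w => f w - g w := ⟨hf.1.sub hg.1, h⟩
  have hNN : Bd R ν fun w => N w - N' w := ⟨hN.1.sub hN'.1, h'⟩
  have h1 : ‖-8 * (A - A')‖ ≤ 8 * ‖A - A'‖ := by simp
  have h2 : ‖(4 * (A + A') - 28) * (A - A')‖ ≤ 44 * ‖A - A'‖ := by
    rw [norm_mul]
    refine mul_le_mul_of_nonneg_right ((norm_sub_le _ _).trans ?_) (norm_nonneg _)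
    rw [norm_mul]
    simp only [Complex.norm_ofNat]
    linarith [norm_add_le A A']
  have h3 := (hfg.const_mul (norm_c2 hA)).add (hg.const_mul h1)
  have h4 := ((hfg.const_mul (norm_c3 hA)).add (hg.const_mul h2)).sub hNN
  have h5 := norm_L_le hR h3 h4 hz
  have h6 := L_sub hR (hf.const_mul (norm_c2 hA)) ((hf.const_mul (norm_c3 hA)).sub hN)
    (hg.const_mul (norm_c2 hA')) ((hg.const_mul (norm_c3 hA')).sub hN') hz
  have e1 : (fun w => (24 - 8 * A) * f w - (24 - 8 * A') * g w) =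
      fun w => (24 - 8 * A) * (f w - g w) + -8 * (A - A') * g w := by
    funext w
    ring
  have e2 : (fun w => (4 * A ^ 2 - 28 * A + 24) * f w - N w -
      ((4 * A' ^ 2 - 28 * A' + 24) * g w - N' w)) =
      fun w => (4 * A ^ 2 - 28 * A + 24) * (f w - g w) + (4 * (A + A') - 28) * (A - A') * g w -
        (N w - N' w) := by
    funext w
    ring
  rw [e1, e2] at h6
  rw [Psi, Psi, add_sub_add_comm, ← h6]
  refine (norm_add_le _ _).trans (add_le_add_right (h5.trans ?_) _)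
  refine div_le_div₀ ?_ (le_of_eq (by ring)) hR (le_of_lt hz)
  have := hfg.nonneg
  have := hNN.nonneg
  positivity

/-- Solutions of the integral equation. -/
def IsSol (R θ : ℝ) (A c κ : ℂ) (m : ℕ) (f : ℂ → ℂ) : Prop :=
  Bd R θ f ∧ ∀ z ∈ HP R, f z = Psi A c f (Nl κ m f) z

/-- The smallness conditions. -/
structure Ok (R θ : ℝ) (κ : ℂ) (m : ℕ) : Prop where
  big : 274 ≤ R
  pos : 0 < θ
  two : θ ≤ 2
  val : ‖κ‖ * θ ^ (2 * m + 1) ≤ 1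
  lip : ‖κ‖ * ((2 * m + 1) * θ ^ (2 * m)) ≤ 1

variable {κ : ℂ} {m : ℕ}

theorem Ok.R_pos (h : Ok R θ κ m) : 0 < R := by linarith [h.big]

theorem Ok.step (h : Ok R θ κ m) {A A' : ℂ} (hA : ‖A‖ ≤ 2) (hA' : ‖A'‖ ≤ 2) (c c' : ℂ)
    (hf : Bd R θ f) (hg : Bd R θ g) {D : ℝ} (hD : ∀ z ∈ HP R, ‖f z - g z‖ ≤ D) {z : ℂ}
    (hz : z ∈ HP R) : ‖Psi A c f (Nl κ m f) z - Psi A' c' g (Nl κ m g) z‖ ≤
      ‖c - c'‖ + ‖A - A'‖ + D / 2 := by
  have hD0 : 0 ≤ D := (norm_nonneg _).trans (hD z hz)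
  refine (Psi_sub h.R_pos hA hA' c c' (hf.mono h.two) (hg.mono h.two) ((Nl_bd hf κ m).mono h.val)
    ((Nl_bd hg κ m).mono h.val) hD (ν := D) (fun w hw => (Nl_lip h.pos hf hg hD κ m hw).trans
      (mul_le_of_le_one_left hD0 h.lip)) hz).trans ?_
  rw [add_assoc ‖c - c'‖]
  refine add_le_add le_rfl ?_
  rw [div_le_iff₀ h.R_pos]
  nlinarith [h.big, norm_nonneg (A - A')]

theorem Ok.exists_sol (h : Ok R θ κ m) {A c : ℂ} (hA : ‖A‖ ≤ 2) (hc : ‖c‖ + 273 / R ≤ θ) :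
    ∃ f, IsSol R θ A c κ m f := by
  refine exists_fix h.pos.le (fun f => Psi A c f (Nl κ m f)) (fun f hf => ⟨Psi_diff h.R_pos c hf
    (Nl_bd hf κ m), fun z hz => ?_⟩) fun f g hf hg D hD z hz => ?_
  · have h1 := Psi_near h.R_pos hA c (hf.mono h.two) ((Nl_bd hf κ m).mono h.val) hz
    have h2 : 273 / z.re ≤ 273 / R := div_le_div_of_nonneg_left (by norm_num) h.R_pos (le_of_lt hz)
    have h3 := norm_le_norm_sub_add (Psi A c f (Nl κ m f) z) c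
    linarith
  · simpa using h.step hA hA c c hf hg hD hz

theorem Ok.stab (h : Ok R θ κ m) {A A' c c' : ℂ} (hA : ‖A‖ ≤ 2) (hA' : ‖A'‖ ≤ 2)
    (hf : IsSol R θ A c κ m f) (hg : IsSol R θ A' c' κ m g) :
    ∀ z ∈ HP R, ‖f z - g z‖ ≤ 2 * (‖c - c'‖ + ‖A - A'‖) :=
  le_of_half (hf.1.sub hg.1).2 fun D hD z hz => by
    rw [hf.2 z hz, hg.2 z hz]
    exact h.step hA hA' c c' hf.1 hg.1 hD hz

theorem Ok.stab0 (h : Ok R θ 1 m) {A A' c : ℂ} (hA : ‖A‖ ≤ 2) (hA' : ‖A'‖ ≤ 2) (hc : ‖c‖ ≤ 1)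
    (hf : IsSol R θ A c 1 m f) (hg : IsSol R 2 A' 1 0 0 g) :
    ∀ z ∈ HP R, ‖f z - c * g z‖ ≤ 2 * (‖A - A'‖ + θ ^ (2 * m + 1)) := by
  have hcg : Bd R 2 fun z => c * g z := (hg.1.const_mul hc).mono (by norm_num)
  have h0 : Bd R 1 fun _ => (0 : ℂ) := ⟨differentiableOn_const _, fun _ _ => by simp⟩
  have e : ∀ z ∈ HP R, c * g z = Psi A' c (fun z => c * g z) (fun _ => 0) z := fun z hz => by
    rw [hg.2 z hz, Psi, Psi, mul_add, mul_one, ← L_const_mul]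
    congr 2
    · funext w
      ring
    · funext w
      simp only [Nl]
      ring
  refine le_of_half (g := fun z => c * g z) (hf.1.sub hcg).2 fun D hD z hz => ?_
  have hD0 : 0 ≤ D := (norm_nonneg _).trans (hD z hz)
  rw [hf.2 z hz, e z hz]
  refine (Psi_sub h.R_pos hA hA' c c (hf.1.mono h.two) hcg ((Nl_bd hf.1 1 m).mono h.val) h0 hD
    (ν := θ ^ (2 * m + 1)) (fun w hw => by simpa using (Nl_bd hf.1 1 m).2 w hw) hz).trans ?_
  rw [sub_self, norm_zero, zero_add, div_le_iff₀ h.R_pos]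
  nlinarith [h.big, norm_nonneg (A - A'), pow_nonneg h.pos.le (2 * m + 1)]

theorem IsSol.near (h : Ok R θ κ m) {A c : ℂ} (hA : ‖A‖ ≤ 2) (hf : IsSol R θ A c κ m f) {z : ℂ}
    (hz : z ∈ HP R) : ‖f z - c‖ ≤ 273 / z.re := by
  rw [hf.2 z hz]
  exact Psi_near h.R_pos hA c (hf.1.mono h.two) ((Nl_bd hf.1 κ m).mono h.val) hz

theorem IsSol.ode (hR : 0 < R) {A c : ℂ} (hf : IsSol R θ A c κ m f) {z : ℂ} (hz : z ∈ HP R) :
    4 * deriv (deriv f) z + I * deriv f z + (24 - 8 * A) * deriv f z / z +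
      (4 * A * (A - 5) * f z - Nl κ m f z) / z ^ 2 = 0 := by
  have h1 := L_ode hR (hf.1.const_mul le_rfl) ((hf.1.const_mul le_rfl).sub (Nl_bd hf.1 κ m))
    hf.2 hz
  rw [deriv_const_mul_field] at h1
  rw [h1]
  ring

end Vale.Agent.P139Z.Borel
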