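import Vale.Agent.P139Z.Borel.Ray

/-! The solution operator on bounded holomorphic functions, and a contraction principle. -/

open Set Filter Topology MeasureTheory Complex Metric

namespace Vale.Agent.P139Z.Borel

/-- Bounded holomorphic functions on the half-plane. -/
def Bd (R M : ℝ) (f : ℂ → ℂ) : Prop := DifferentiableOn ℂ f (HP R) ∧ ∀ z ∈ HP R, ‖f z‖ ≤ M

theorem Bd.nonneg {R M : ℝ} {f : ℂ → ℂ} (h : Bd R M f) : 0 ≤ M :=
  (norm_nonneg _).trans (h.2 ((R + 1 : ℝ) : ℂ) (by change R < _; simp))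

theorem Bd.mono {R M M' : ℝ} {f : ℂ → ℂ} (h : Bd R M f) (hM : M ≤ M') : Bd R M' f :=
  ⟨h.1, fun z hz => (h.2 z hz).trans hM⟩

theorem Bd.const_mul {R M M' : ℝ} {f : ℂ → ℂ} (h : Bd R M f) {c : ℂ} (hc : ‖c‖ ≤ M') :
    Bd R (M' * M) fun z => c * f z :=
  ⟨h.1.const_mul c, fun z hz => by
    rw [norm_mul]
    exact mul_le_mul hc (h.2 z hz) (norm_nonneg _) ((norm_nonneg _).trans hc)⟩

theorem Bd.sub {R M M' : ℝ} {f g : ℂ → ℂ} (h : Bd R M f) (h' : Bd R M' g) :
    Bd R (M + M') fun z => f z - g z :=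
  ⟨h.1.sub h'.1, fun z hz => (norm_sub_le _ _).trans (add_le_add (h.2 z hz) (h'.2 z hz))⟩

theorem Bd.add {R M M' : ℝ} {f g : ℂ → ℂ} (h : Bd R M f) (h' : Bd R M' g) :
    Bd R (M + M') fun z => f z + g z :=
  ⟨h.1.add h'.1, fun z hz => (norm_add_le _ _).trans (add_le_add (h.2 z hz) (h'.2 z hz))⟩

/-- The horizontal integral. -/
noncomputable def Jop (b : ℂ → ℂ) : ℂ → ℂ := ray 0 1 fun w => b w / w ^ 2

/-- The source. -/
noncomputable def Src (a b : ℂ → ℂ) (z : ℂ) : ℂ := -a z / z + Jop b z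

/-- The solution operator. -/
noncomputable def Lop (a b : ℂ → ℂ) (z : ℂ) : ℂ := -I / 4 * ray (1 / 4) I (Src a b) z

variable {R α β : ℝ} {a b : ℂ → ℂ}

theorem re_pos (hR : 0 < R) {z : ℂ} (hz : z ∈ HP R) : 0 < z.re := hR.trans hz

theorem ne_zero (hR : 0 < R) {z : ℂ} (hz : z ∈ HP R) : z ≠ 0 := by
  rintro rfl
  simpa using re_pos hR hz

theorem J_bound (hb : Bd R β b) {z : ℂ} (hz : z ∈ HP R) {x : ℝ} (hx : 0 < x)
    (hxz : x ≤ z.re) (t : ℝ) (ht : 0 < t) :
    ‖cexp (-(0 : ℝ) * t) * (b (z + 1 * t) / (z + 1 * t) ^ 2)‖ ≤ β / (x + t) ^ 2 := by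
  have h1 : x + t ≤ ‖z + 1 * t‖ := by
    refine le_trans ?_ (re_le_norm _)
    simp [hxz]
  rw [ofReal_zero, neg_zero, zero_mul, exp_zero, one_mul, norm_div, norm_pow]
  exact div_le_div₀ hb.nonneg (hb.2 _ (add_mem hz (by simp) ht.le)) (by positivity)
    (pow_le_pow_left₀ (by positivity) h1 2)

theorem J_diff (hR : 0 < R) (hb : DifferentiableOn ℂ b (HP R)) :
    DifferentiableOn ℂ (fun w => b w / w ^ 2) (HP R) :=
  hb.div (by fun_prop) fun w hw => pow_ne_zero 2 (ne_zero hR hw)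

theorem hasDerivAt_J (hR : 0 < R) (hb : Bd R β b) {z : ℂ} (hz : z ∈ HP R) :
    HasDerivAt (Jop b) (-(b z / z ^ 2)) z := by
  obtain ⟨D, h1, h2⟩ := hasDerivAt_ray (κ := 0) (d := 1) (by simp) (J_diff hR hb.1)
    (inv_int hR β).1 (inv_int hR β).2.2 (fun w hw => J_bound hb hw hR (le_of_lt hw)) hz
  refine h1.congr_deriv ?_
  simpa using h2

theorem norm_J_le (hR : 0 < R) (hb : Bd R β b) {z : ℂ} (hz : z ∈ HP R) :
    ‖Jop b z‖ ≤ β / z.re :=
  (norm_ray_le (κ := 0) (d := 1) (F := fun w => b w / w ^ 2) (inv_int (re_pos hR hz) β).1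
    (J_bound hb hz (re_pos hR hz) le_rfl)).trans_eq
    (inv_int (re_pos hR hz) β).2.1

theorem hasDerivAt_Src (hR : 0 < R) (ha : Bd R α a) (hb : Bd R β b) {z : ℂ} (hz : z ∈ HP R) :
    HasDerivAt (Src a b) (-deriv a z / z + a z / z ^ 2 - b z / z ^ 2) z := by
  have h0 := ne_zero hR hz
  have h1 := (ha.1.differentiableAt ((isOpen_HP R).mem_nhds hz)).hasDerivAt
  refine ((h1.neg.div (hasDerivAt_id z) h0).add (hasDerivAt_J hR hb hz)).congr_deriv ?_
  simp only [id, Pi.neg_apply]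
  field_simp
  ring

theorem norm_Src_le (hR : 0 < R) (ha : Bd R α a) (hb : Bd R β b) {z : ℂ} (hz : z ∈ HP R) :
    ‖Src a b z‖ ≤ (α + β) / z.re := by
  rw [add_div]
  refine (norm_add_le _ _).trans (add_le_add ?_ (norm_J_le hR hb hz))
  rw [norm_div, norm_neg]
  exact div_le_div₀ ha.nonneg (ha.2 z hz) (re_pos hR hz) (re_le_norm z)

theorem Src_diff (hR : 0 < R) (ha : Bd R α a) (hb : Bd R β b) :
    DifferentiableOn ℂ (Src a b) (HP R) := fun _ hz =>
  (hasDerivAt_Src hR ha hb hz).differentiableAt.differentiableWithinAt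

theorem K_bound (hR : 0 < R) (ha : Bd R α a) (hb : Bd R β b) {z : ℂ} (hz : z ∈ HP R) {x : ℝ}
    (hx : 0 < x) (hxz : x ≤ z.re) (t : ℝ) (ht : 0 < t) :
    ‖cexp (-(1 / 4 : ℝ) * t) * Src a b (z + I * t)‖ ≤ Real.exp (-(1 / 4) * t) * ((α + β) / x) := by
  rw [norm_mul, norm_exp]
  refine mul_le_mul (le_of_eq (by simp)) ?_ (norm_nonneg _) (Real.exp_pos _).le
  refine (norm_Src_le hR ha hb (add_mem hz (by simp) ht.le)).trans ?_
  refine div_le_div_of_nonneg_left (add_nonneg ha.nonneg hb.nonneg) hx ?_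
  simp [hxz]

theorem hasDerivAt_L (hR : 0 < R) (ha : Bd R α a) (hb : Bd R β b) {z : ℂ} (hz : z ∈ HP R) :
    HasDerivAt (Lop a b) ((Src a b z - I * Lop a b z) / 4) z := by
  obtain ⟨D, h1, h2⟩ := hasDerivAt_ray (κ := 1 / 4) (d := I) (by simp) (Src_diff hR ha hb)
    (exp_int _).1 (exp_int _).2.2 (fun w hw => K_bound hR ha hb hw hR (le_of_lt hw)) hz
  refine (h1.const_mul (-I / 4)).congr_deriv ?_
  rw [Lop]
  push_cast at h2
  linear_combination (-1 / 4 : ℂ) * h2 - (ray (1 / 4) I (Src a b) z / 16) * I_sq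

theorem norm_L_le (hR : 0 < R) (ha : Bd R α a) (hb : Bd R β b) {z : ℂ} (hz : z ∈ HP R) :
    ‖Lop a b z‖ ≤ (α + β) / z.re := by
  have h := (norm_ray_le (exp_int _).1 (K_bound hR ha hb hz (re_pos hR hz) le_rfl)).trans_eq
    (exp_int _).2.1
  have e : ‖-I / 4‖ = 1 / 4 := by simp
  rw [Lop, norm_mul, e]
  linarith

theorem L_diff (hR : 0 < R) (ha : Bd R α a) (hb : Bd R β b) :
    DifferentiableOn ℂ (Lop a b) (HP R) := fun _ hz =>
  (hasDerivAt_L hR ha hb hz).differentiableAt.differentiableWithinAt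

theorem L_const_mul (c : ℂ) (a b : ℂ → ℂ) (z : ℂ) :
    Lop (fun w => c * a w) (fun w => c * b w) z = c * Lop a b z := by
  have e : Src (fun w => c * a w) (fun w => c * b w) = fun w => c * Src a b w := by
    funext w
    simp only [Src, Jop, mul_div_assoc, ray_const_mul]
    ring
  rw [Lop, Lop, e, ray_const_mul]
  ring

theorem L_sub (hR : 0 < R) (ha : Bd R α a) (hb : Bd R β b) {α' β' : ℝ} {a' b' : ℂ → ℂ}
    (ha' : Bd R α' a') (hb' : Bd R β' b') {z : ℂ} (hz : z ∈ HP R) :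
    Lop (fun w => a w - a' w) (fun w => b w - b' w) z = Lop a b z - Lop a' b' z := by
  have e : ∀ w ∈ HP R, Src (fun w => a w - a' w) (fun w => b w - b' w) w =
      Src a b w - Src a' b' w := by
    intro w hw
    have h := ray_sub (κ := 0) (d := 1) (F := fun w => b w / w ^ 2) (G := fun w => b' w / w ^ 2)
      (integrable_ray (κ := 0) (d := 1) (by simp) (J_diff hR hb.1).continuousOn hw (inv_int hR β).1
        (J_bound hb hw hR (le_of_lt hw)))
      (integrable_ray (κ := 0) (d := 1) (by simp) (J_diff hR hb'.1).continuousOn hw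
        (inv_int hR β').1 (J_bound hb' hw hR (le_of_lt hw)))
    simp only [Src, Jop, sub_div, neg_sub]
    rw [h]
    ring
  rw [Lop, Lop, Lop, ray_congr (by simp) e hz, ray_sub
    (integrable_ray (by simp) (Src_diff hR ha hb).continuousOn hz (exp_int _).1
      (K_bound hR ha hb hz hR (le_of_lt hz)))
    (integrable_ray (by simp) (Src_diff hR ha' hb').continuousOn hz (exp_int _).1
      (K_bound hR ha' hb' hz hR (le_of_lt hz)))]
  ring

/-- The differential equation of the second order. -/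
theorem L_ode (hR : 0 < R) (ha : Bd R α a) (hb : Bd R β b) {f : ℂ → ℂ} {c : ℂ}
    (hf : ∀ z ∈ HP R, f z = c + Lop a b z) {z : ℂ} (hz : z ∈ HP R) :
    4 * deriv (deriv f) z + I * deriv f z = -deriv a z / z + a z / z ^ 2 - b z / z ^ 2 := by
  have h1 : ∀ w ∈ HP R, deriv f w = (Src a b w - I * Lop a b w) / 4 := fun w hw =>
    (((hasDerivAt_L hR ha hb hw).const_add c).congr_of_eventuallyEq
      (eventually_of_mem ((isOpen_HP R).mem_nhds hw) hf)).deriv
  have h2 := ((((hasDerivAt_Src hR ha hb hz).sub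
    ((hasDerivAt_L hR ha hb hz).const_mul I)).div_const 4).congr_of_eventuallyEq
      (eventually_of_mem ((isOpen_HP R).mem_nhds hz) h1)).deriv
  rw [h2, h1 z hz]
  ring

/-! ### The contraction principle -/

theorem le_of_half {f g : ℂ → ℂ} {U : Set ℂ} {M ε : ℝ} (hM : ∀ z ∈ U, ‖f z - g z‖ ≤ M)
    (h : ∀ D, (∀ z ∈ U, ‖f z - g z‖ ≤ D) → ∀ z ∈ U, ‖f z - g z‖ ≤ ε + D / 2) :
    ∀ z ∈ U, ‖f z - g z‖ ≤ 2 * ε := by
  have h1 : ∀ k : ℕ, ∀ z ∈ U, ‖f z - g z‖ ≤ 2 * ε + (M - 2 * ε) * (1 / 2) ^ k := by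
    intro k
    induction k with
    | zero => simpa using hM
    | succ k ih =>
      intro z hz
      refine (h _ ih z hz).trans_eq ?_
      ring
  intro z hz
  have h2 : Tendsto (fun k : ℕ => 2 * ε + (M - 2 * ε) * (1 / 2) ^ k) atTop
      (𝓝 (2 * ε + (M - 2 * ε) * 0)) :=
    ((tendsto_pow_atTop_nhds_zero_of_lt_one (by norm_num) (by norm_num)).const_mul _).const_add _
  rw [mul_zero, add_zero] at h2
  exact ge_of_tendsto' h2 fun k => h1 k z hz

theorem exists_fix {θ : ℝ} (hθ : 0 ≤ θ) (Φ : (ℂ → ℂ) → ℂ → ℂ) (hm : ∀ f, Bd R θ f → Bd R θ (Φ f))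
    (hl : ∀ f g, Bd R θ f → Bd R θ g → ∀ D, (∀ z ∈ HP R, ‖f z - g z‖ ≤ D) →
      ∀ z ∈ HP R, ‖Φ f z - Φ g z‖ ≤ D / 2) :
    ∃ f, Bd R θ f ∧ ∀ z ∈ HP R, f z = Φ f z := by
  let u : ℕ → ℂ → ℂ := fun k => Φ^[k] fun _ => 0
  have hu : ∀ k, u (k + 1) = Φ (u k) := fun k => Function.iterate_succ_apply' _ _ _
  have h1 : ∀ k, Bd R θ (u k) := by
    intro k
    induction k with
    | zero => exact ⟨differentiableOn_const _, fun _ _ => by simpa [u] using hθ⟩
    | succ k ih => rw [hu]; exact hm _ ih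
  have h2 : ∀ k, ∀ z ∈ HP R, ‖u k z - u (k + 1) z‖ ≤ 4 * θ / 2 / 2 ^ k := by
    intro k
    induction k with
    | zero =>
      intro z hz
      refine (((h1 0).sub (h1 1)).2 z hz).trans_eq ?_
      ring
    | succ k ih =>
      intro z hz
      rw [hu (k + 1)]
      nth_rw 1 [hu k]
      refine (hl _ _ (h1 k) (h1 (k + 1)) _ ih z hz).trans_eq ?_
      ring
  have h3 : ∀ z ∈ HP R, ∃ w, Tendsto (fun k => u k z) atTop (𝓝 w) := fun z hz =>
    cauchySeq_tendsto_of_complete (cauchySeq_of_le_geometric_two (C := 4 * θ) fun k => by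
      rw [dist_eq_norm]
      exact h2 k z hz)
  choose! f hf using h3
  have h4 : ∀ k, ∀ z ∈ HP R, ‖u k z - f z‖ ≤ 4 * θ / 2 ^ k := fun k z hz => by
    rw [← dist_eq_norm]
    exact dist_le_of_le_geometric_two_of_tendsto (fun k => by
      rw [dist_eq_norm]
      exact h2 k z hz) (hf z hz) k
  have h5 : Tendsto (fun k : ℕ => 4 * θ / 2 ^ k) atTop (𝓝 0) :=
    tendsto_const_nhds.div_atTop (tendsto_pow_atTop_atTop_of_one_lt one_lt_two)
  have h6 : TendstoUniformlyOn u f atTop (HP R) := by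
    refine Metric.tendstoUniformlyOn_iff.2 fun ε hε => ?_
    filter_upwards [h5.eventually_lt_const hε] with k hk z hz
    rw [dist_comm, dist_eq_norm]
    exact (h4 k z hz).trans_lt hk
  have h7 : Bd R θ f := ⟨h6.tendstoLocallyUniformlyOn.differentiableOn
    (Eventually.of_forall fun k => (h1 k).1) (isOpen_HP R),
    fun z hz => le_of_tendsto' (hf z hz).norm fun k => (h1 k).2 z hz⟩
  refine ⟨f, h7, fun z hz => tendsto_nhds_unique ((hf z hz).comp (tendsto_add_atTop_nat 1)) ?_⟩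
  rw [tendsto_iff_norm_sub_tendsto_zero]
  refine squeeze_zero (fun _ => norm_nonneg _) (fun k => ?_) (by simpa using h5.div_const 2)
  simp only [Function.comp_apply, hu]
  exact hl _ _ (h1 k) h7 _ (h4 k) z hz

end Vale.Agent.P139Z.Borel
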