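import Mathlib

/-! Integrals of holomorphic functions along rays in a right half-plane. -/

open Set Filter Topology MeasureTheory Complex Metric

namespace Vale.Agent.P139Z.Borel

/-- The right half-plane. -/
def HP (R : ℝ) : Set ℂ := {z | R < z.re}

theorem isOpen_HP (R : ℝ) : IsOpen (HP R) := isOpen_lt continuous_const continuous_re

theorem closedBall_subset {R r : ℝ} {z : ℂ} (h : R + r < z.re) : closedBall z r ⊆ HP R := by
  intro w hw
  have h1 := (abs_re_le_norm (w - z)).trans (mem_closedBall_iff_norm.1 hw)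
  rw [sub_re, abs_le] at h1
  change R < w.re
  linarith [h1.1]

theorem add_mem {R : ℝ} {z d : ℂ} (hz : z ∈ HP R) (hd : 0 ≤ d.re) {t : ℝ} (ht : 0 ≤ t) :
    z + d * t ∈ HP R := by
  change R < (z + d * t).re
  have h : R < z.re := hz
  simp only [add_re, mul_re, ofReal_re, ofReal_im, mul_zero, sub_zero]
  nlinarith [mul_nonneg hd ht]

/-- Cauchy's estimate in the half-plane. -/
theorem cauchy {R r C : ℝ} {F : ℂ → ℂ} (hF : DifferentiableOn ℂ F (HP R)) {z : ℂ} (hr : 0 < r)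
    (hz : R + r < z.re) (hC : ∀ w ∈ sphere z r, ‖F w‖ ≤ C) (i : ℕ) :
    ‖iteratedDeriv i F z‖ ≤ i.factorial * C / r ^ i :=
  norm_iteratedDeriv_le_of_forall_mem_sphere_norm_le i hr
    (hF.diffContOnCl_ball (closedBall_subset hz)) hC

theorem cauchy_one {R r C : ℝ} {F : ℂ → ℂ} (hF : DifferentiableOn ℂ F (HP R)) {z : ℂ} (hr : 0 < r)
    (hz : R + r < z.re) (hC : ∀ w ∈ HP R, ‖F w‖ ≤ C) : ‖deriv F z‖ ≤ C / r :=
  norm_deriv_le_of_forall_mem_sphere_norm_le hr (hF.diffContOnCl_ball (closedBall_subset hz))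
    fun w hw => hC w (closedBall_subset hz (sphere_subset_closedBall hw))

/-- The integral along the ray of direction `d`. -/
noncomputable def ray (κ : ℝ) (d : ℂ) (F : ℂ → ℂ) (z : ℂ) : ℂ :=
  ∫ t in Ioi (0 : ℝ), cexp (-κ * t) * F (z + d * t)

theorem contOn {R κ : ℝ} {d : ℂ} (hd : 0 ≤ d.re) {F : ℂ → ℂ} (hF : ContinuousOn F (HP R)) {z : ℂ}
    (hz : z ∈ HP R) : ContinuousOn (fun t : ℝ => cexp (-κ * t) * F (z + d * t)) (Ioi 0) :=
  ContinuousOn.mul (by fun_prop) (hF.comp (by fun_prop) fun t ht => add_mem hz hd (le_of_lt ht))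

theorem integrable_ray {R κ : ℝ} {d : ℂ} (hd : 0 ≤ d.re) {F : ℂ → ℂ} (hF : ContinuousOn F (HP R))
    {z : ℂ} (hz : z ∈ HP R) {g : ℝ → ℝ} (hg : IntegrableOn g (Ioi 0))
    (hb : ∀ t : ℝ, 0 < t → ‖cexp (-κ * t) * F (z + d * t)‖ ≤ g t) :
    IntegrableOn (fun t : ℝ => cexp (-κ * t) * F (z + d * t)) (Ioi 0) :=
  hg.mono' ((contOn hd hF hz).aestronglyMeasurable measurableSet_Ioi)
    ((ae_restrict_iff' measurableSet_Ioi).2 (Eventually.of_forall hb))

theorem hasDerivAt_ray {R κ : ℝ} {d : ℂ} (hd : 0 ≤ d.re) {F : ℂ → ℂ}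
    (hF : DifferentiableOn ℂ F (HP R)) {g : ℝ → ℝ} (hg : IntegrableOn g (Ioi 0))
    (hg0 : Tendsto g atTop (𝓝 0))
    (hb : ∀ z ∈ HP R, ∀ t : ℝ, 0 < t → ‖cexp (-κ * t) * F (z + d * t)‖ ≤ g t) {z : ℂ}
    (hz : z ∈ HP R) : ∃ D, HasDerivAt (ray κ d F) D z ∧ d * D = κ * ray κ d F z - F z := by
  have hz' : R < z.re := hz
  set r := (z.re - R) / 3 with hr
  have hr0 : 0 < r := by rw [hr]; linarith
  have hF' : DifferentiableOn ℂ (deriv F) (HP R) := hF.deriv (isOpen_HP R)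
  have hder : ∀ w ∈ HP R, ∀ t : ℝ, 0 ≤ t → HasDerivAt (fun w => cexp (-κ * t) * F (w + d * t))
      (cexp (-κ * t) * deriv F (w + d * t)) w := fun w hw t ht =>
    (((hF.differentiableAt ((isOpen_HP R).mem_nhds (add_mem hw hd ht))).hasDerivAt).comp_add_const
      w _).const_mul _
  have hball : ∀ w ∈ ball z r, R + r < w.re := fun w hw => by
    have h1 := (abs_re_le_norm (w - z)).trans_lt (mem_ball_iff_norm.1 hw)
    rw [sub_re, abs_lt] at h1
    linarith [h1.1]
  have hmem : ∀ w ∈ ball z r, w ∈ HP R := fun w hw => by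
    have := hball w hw
    change R < w.re
    linarith
  have hint := integrable_ray hd hF.continuousOn hz hg (hb z hz)
  obtain ⟨h1, h2⟩ := hasDerivAt_integral_of_dominated_loc_of_deriv_le
    (μ := volume.restrict (Ioi (0 : ℝ))) (F := fun w t => cexp (-κ * t) * F (w + d * t))
    (F' := fun w t => cexp (-κ * t) * deriv F (w + d * t)) (bound := fun t => g t / r)
    (ball_mem_nhds z hr0)
    (by
      filter_upwards [ball_mem_nhds z hr0] with w hw
      exact (contOn hd hF.continuousOn (hmem w hw)).aestronglyMeasurable measurableSet_Ioi)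
    hint ((contOn hd hF'.continuousOn hz).aestronglyMeasurable measurableSet_Ioi)
    ((ae_restrict_iff' measurableSet_Ioi).2 (Eventually.of_forall fun t ht w hw => by
      rw [← (hder w (hmem w hw) t (le_of_lt ht)).deriv]
      exact cauchy_one (fun v hv => (hder v hv t (le_of_lt ht)).differentiableAt.differentiableWithinAt)
        hr0 (hball w hw) fun v hv => hb v hv t ht))
    (hg.div_const r)
    ((ae_restrict_iff' measurableSet_Ioi).2 (Eventually.of_forall fun t ht w hw =>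
      hder w (hmem w hw) t (le_of_lt ht)))
  refine ⟨_, h2, ?_⟩
  have h3 : ∀ t ∈ Ici (0 : ℝ), HasDerivAt (fun t : ℝ => cexp (-κ * t) * F (z + d * t))
      (d * (cexp (-κ * t) * deriv F (z + d * t)) - κ * (cexp (-κ * t) * F (z + d * t))) t := by
    intro t ht
    have a1 : HasDerivAt (fun s : ℂ => cexp (-κ * s)) (cexp (-κ * t) * (-κ * 1)) t :=
      ((hasDerivAt_id (t : ℂ)).const_mul _).cexp
    have a2 : HasDerivAt (fun s : ℂ => F (z + d * s)) (deriv F (z + d * t) * (d * 1)) t :=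
      (hF.differentiableAt ((isOpen_HP R).mem_nhds (add_mem hz hd ht))).hasDerivAt.comp (t : ℂ)
        (((hasDerivAt_id (t : ℂ)).const_mul d).const_add z)
    refine (a1.mul a2).comp_ofReal.congr_deriv ?_
    ring
  have h4 := integral_Ioi_of_hasDerivAt_of_tendsto' h3
    ((h1.const_mul d).sub (hint.const_mul (κ : ℂ))) (m := 0)
    (squeeze_zero_norm' ((eventually_gt_atTop 0).mono (hb z hz)) hg0)
  rw [integral_sub (h1.const_mul d) (hint.const_mul (κ : ℂ)), integral_const_mul,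
    integral_const_mul] at h4
  simp only [ofReal_zero, mul_zero, exp_zero, add_zero, one_mul, zero_sub] at h4
  rw [ray]
  linear_combination h4

theorem norm_ray_le {κ : ℝ} {d : ℂ} {F : ℂ → ℂ} {z : ℂ} {g : ℝ → ℝ} (hg : IntegrableOn g (Ioi 0))
    (hb : ∀ t : ℝ, 0 < t → ‖cexp (-κ * t) * F (z + d * t)‖ ≤ g t) :
    ‖ray κ d F z‖ ≤ ∫ t in Ioi (0 : ℝ), g t :=
  norm_integral_le_of_norm_le hg ((ae_restrict_iff' measurableSet_Ioi).2 (Eventually.of_forall hb))

theorem ray_congr {R κ : ℝ} {d : ℂ} (hd : 0 ≤ d.re) {F G : ℂ → ℂ} (h : ∀ w ∈ HP R, F w = G w)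
    {z : ℂ} (hz : z ∈ HP R) : ray κ d F z = ray κ d G z :=
  setIntegral_congr_fun measurableSet_Ioi fun t ht => by
    simp only [h _ (add_mem hz hd (le_of_lt ht))]

theorem ray_const_mul (κ : ℝ) (d c : ℂ) (F : ℂ → ℂ) (z : ℂ) :
    ray κ d (fun w => c * F w) z = c * ray κ d F z := by
  rw [ray, ray, ← integral_const_mul]
  congr 1
  funext t
  ring

theorem ray_sub {κ : ℝ} {d : ℂ} {F G : ℂ → ℂ} {z : ℂ}
    (hF : IntegrableOn (fun t : ℝ => cexp (-κ * t) * F (z + d * t)) (Ioi 0))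
    (hG : IntegrableOn (fun t : ℝ => cexp (-κ * t) * G (z + d * t)) (Ioi 0)) :
    ray κ d (fun w => F w - G w) z = ray κ d F z - ray κ d G z := by
  rw [ray, ray, ray, ← integral_sub hF hG]
  congr 1
  funext t
  ring

/-! ### The vertical and the horizontal kernels -/

theorem exp_int (M : ℝ) : IntegrableOn (fun t : ℝ => Real.exp (-(1 / 4) * t) * M) (Ioi 0) ∧
    ∫ t in Ioi (0 : ℝ), Real.exp (-(1 / 4) * t) * M = 4 * M ∧
    Tendsto (fun t : ℝ => Real.exp (-(1 / 4) * t) * M) atTop (𝓝 0) := by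
  refine ⟨(integrableOn_exp_mul_Ioi (by norm_num) 0).mul_const M, ?_, ?_⟩
  · rw [integral_mul_const, integral_exp_mul_Ioi (by norm_num)]
    norm_num
  · have h : Tendsto (fun t : ℝ => Real.exp (-(1 / 4) * t)) atTop (𝓝 0) :=
      Real.tendsto_exp_atBot.comp (tendsto_id.const_mul_atTop_of_neg (by norm_num))
    simpa using h.mul_const M

theorem inv_int {x : ℝ} (hx : 0 < x) (M : ℝ) :
    IntegrableOn (fun t : ℝ => M / (x + t) ^ 2) (Ioi 0) ∧
    ∫ t in Ioi (0 : ℝ), M / (x + t) ^ 2 = M / x ∧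
    Tendsto (fun t : ℝ => M / (x + t) ^ 2) atTop (𝓝 0) := by
  have h1 : ∀ t ∈ Ici (0 : ℝ), HasDerivAt (fun t : ℝ => -(x + t)⁻¹) (1 / (x + t) ^ 2) t := by
    intro t ht
    have h0 : x + t ≠ 0 := (add_pos_of_pos_of_nonneg hx ht).ne'
    refine (((hasDerivAt_id t).const_add x).inv h0).neg.congr_deriv ?_
    simp [neg_div]
  have h2 : Tendsto (fun t : ℝ => x + t) atTop atTop := tendsto_atTop_add_const_left _ _ tendsto_id
  have h3 : Tendsto (fun t : ℝ => -(x + t)⁻¹) atTop (𝓝 0) := by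
    simpa using h2.inv_tendsto_atTop.neg
  have h4 := integrableOn_Ioi_deriv_of_nonneg' h1 (fun t _ => by positivity) h3
  have h5 := integral_Ioi_of_hasDerivAt_of_tendsto' h1 h4 h3
  have e : (fun t : ℝ => M / (x + t) ^ 2) = fun t => M * (1 / (x + t) ^ 2) := by
    funext t
    ring
  refine ⟨by rw [e]; exact h4.const_mul M, ?_, ?_⟩
  · rw [e, integral_const_mul, h5]
    simp [div_eq_mul_inv]
  · exact tendsto_const_nhds.div_atTop ((tendsto_pow_atTop two_ne_zero).comp h2)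

end Vale.Agent.P139Z.Borel
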